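import Vale.Agent.P284.H625.M7a

/-!
# P284 (helper625), T1' (M7), part 2: the branches over a ball, the trace, the theorem
-/

open scoped Manifold ContDiff Topology ComplexOrder
open Filter Set Metric

noncomputable section

namespace Vale.Agent.P284.H625.M7

open Vale.Agent.P272.K Vale.Agent.P272.KOD Vale.Agent.P284.H812 Vale.Agent.P284.H451
  Vale.Agent.P284.H573 Vale.Agent.P284.H837

section fam
variable {n m k : ℕ} {Z : Type} [TopologicalSpace Z] [T2Space Z] [ChartedSpace (Cm n) Z]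
  [IsManifold 𝓘(ℂ, Cm n) ω Z] {H' : Type} [NormedAddCommGroup H'] {N : Chart n Z → Cm n → ℝ}
  {V : Cm n → H'} {B : Set (Cm n)} {G : ∀ b : Cm n, Set (Germ (𝓝 b) Z)} {d : ℕ} {β₀ : Cm n}

/-- the branches over a ball: data -/
structure Brs (m : ℕ) (N : Chart n Z → Cm n → ℝ) (V : Cm n → H') (B : Set (Cm n))
    (G : ∀ b : Cm n, Set (Germ (𝓝 b) Z)) (d : ℕ) (β₀ : Cm n) (s : ℝ) (e : Fin d → Chart n Z)
    (f : Fin d → Cm n → Cm n) : Prop where
  pos : 0 < s
  sub : ball β₀ s ⊆ B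
  br : ∀ i, ∀ z ∈ ball β₀ s, IsBranch m N V z (e i) (f i)
  inj : ∀ z ∈ ball β₀ s,
    Function.Injective fun i => ((fun z => (e i).symm (f i z) : Cm n → Z) : Germ (𝓝 z) Z)
  rng : ∀ z ∈ ball β₀ s,
    G z = range fun i => ((fun z => (e i).symm (f i z) : Cm n → Z) : Germ (𝓝 z) Z)

theorem exists_brs (hfam : BrFam m N V B G) (hB : IsOpen B)
    (hd : ∀ b ∈ B, (G b).encard ≤ d) (hβ₀ : β₀ ∈ B) (hcard : (G β₀).encard = d) :
    ∃ (s : ℝ) (e : Fin d → Chart n Z) (f : Fin d → Cm n → Cm n), Brs m N V B G d β₀ s e f := by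
  classical
  have hfin : (G β₀).Finite := Set.finite_of_encard_eq_coe hcard
  have := hfin.fintype
  have hc : Fintype.card (G β₀) = d := by
    rw [← Set.toFinset_card]
    have := Set.encard_eq_coe_toFinset_card (G β₀)
    rw [hcard] at this
    exact_mod_cast this.symm
  set E : Fin d ≃ G β₀ := (Fintype.equivFinOfCardEq hc).symm with hE
  choose e f hbr hg using fun i : Fin d => hfam.br β₀ hβ₀ (E i) (E i).2
  have h1 : ∀ᶠ z in 𝓝 β₀, z ∈ B ∧ ∀ i, IsBranch m N V z (e i) (f i) :=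
    Filter.Eventually.and (hB.mem_nhds hβ₀) (eventually_all.2 fun i => br_nhds (hbr i))
  obtain ⟨s, hs, hball⟩ := Metric.eventually_nhds_iff_ball.1 h1
  have hsub : ball β₀ s ⊆ B := fun z hz => (hball z hz).1
  have hmem : ∀ i, ∀ z ∈ ball β₀ s,
      ((fun z => (e i).symm (f i z) : Cm n → Z) : Germ (𝓝 z) Z) ∈ G z := by
    intro i z hz
    refine hfam.cont β₀ s (e i) (f i) hs hsub (fun z hz => (hball z hz).2 i) ?_ z hz
    rw [← hg i]
    exact (E i).2
  have hinj : ∀ z ∈ ball β₀ s,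
      Function.Injective fun i => ((fun z => (e i).symm (f i z) : Cm n → Z) : Germ (𝓝 z) Z) := by
    intro z hz i j hij
    have h2 : (fun z => (e i).symm (f i z)) =ᶠ[𝓝 z] fun z => (e j).symm (f j z) :=
      Germ.coe_eq.1 hij
    have h3 := Vale.Agent.P284.H837.ident (D := ball β₀ s) (convex_ball β₀ s).isPreconnected
      (fun z hz => br_hol ((hball z hz).2 i)) (fun z hz => br_hol ((hball z hz).2 j)) hz h2
      (mem_ball_self hs)
    have h4 : (E i : Germ (𝓝 β₀) Z) = E j := by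
      rw [hg i, hg j]
      exact Germ.coe_eq.2 h3
    exact E.injective (Subtype.ext h4)
  refine ⟨s, e, f, hs, hsub, fun i z hz => (hball z hz).2 i, hinj, fun z hz => ?_⟩
  have h5 : (range fun i => ((fun z => (e i).symm (f i z) : Cm n → Z) : Germ (𝓝 z) Z)) ⊆ G z := by
    rintro _ ⟨i, rfl⟩
    exact hmem i z hz
  have h6 : (range fun i => ((fun z => (e i).symm (f i z) : Cm n → Z) :
      Germ (𝓝 z) Z)).encard = d := by
    rw [← image_univ, (hinj z hz).encard_image, encard_univ]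
    simp
  exact ((finite_range _).eq_of_subset_of_encard_le h5 ((hd z (hsub hz)).trans h6.ge)).symm

variable {s : ℝ} {e : Fin d → Chart n Z} {f : Fin d → Cm n → Cm n}

omit [T2Space Z] [IsManifold 𝓘(ℂ, Cm n) ω Z] in
lemma Brs.trv_eq (h : Brs m N V B G d β₀ s e f) {z : Cm n} (hz : z ∈ ball β₀ s)
    (σ : PSec n k Z) : trv G σ z = ∑ i, fval σ z (fun z => (e i).symm (f i z)) := by
  unfold trv
  rw [h.rng z hz, finsum_mem_range (h.inj z hz), finsum_eq_sum_of_fintype]
  rfl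

/-- a generic point of the ball -/
theorem Brs.exists_beta [ConnectedSpace Z] (h : Brs m N V B G d β₀ s e f) (hm : 1 ≤ m)
    (hV : ∀ b ∈ B, V b ≠ 0) {M : ℕ} (τ : PSec n M Z)
    (hτ : ∃ e x, At e x ∧ τ.coeff e (e x) ≠ 0) (i₀ : Fin d) :
    ∃ β ∈ ball β₀ s, τ.val ((e i₀).symm (f i₀ β)) ≠ 0 ∧
      ∀ i, i ≠ i₀ → (e i).symm (f i β) ≠ (e i₀).symm (f i₀ β) := by
  obtain ⟨O, hOD, hO, hOn, hP⟩ := exists_generic (Finset.univ : Finset (Fin d))
    (fun i z => i ≠ i₀ → (e i).symm (f i z) ≠ (e i₀).symm (f i₀ z)) (D := ball β₀ s) isOpen_ball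
    ⟨β₀, mem_ball_self h.pos⟩ (by
      intro i _ O hOD hO hOn
      rcases eq_or_ne i i₀ with rfl | hi
      · obtain ⟨z, hz⟩ := hOn
        exact ⟨z, hz, Eventually.of_forall fun _ h => absurd rfl h⟩
      · by_contra hcon
        push Not at hcon
        obtain ⟨z₀, hz₀⟩ := hOn
        have h1 : ∀ z ∈ O, (e i).symm (f i z) = (e i₀).symm (f i₀ z) := by
          intro z hz
          by_contra hne
          refine hcon z hz ?_
          have c1 := (br_hol (h.br i z (hOD hz))).continuousAt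
          have c2 := (br_hol (h.br i₀ z (hOD hz))).continuousAt
          have := (c1.prodMk c2).eventually_mem
            ((isOpen_ne_fun continuous_fst continuous_snd).mem_nhds
              (show ((e i).symm (f i z), (e i₀).symm (f i₀ z)) ∈ {x : Z × Z | x.1 ≠ x.2} from hne))
          exact this.mono fun z' hz' h => hz' h.2
        refine hi (h.inj z₀ (hOD hz₀) (Germ.coe_eq.2 ?_))
        filter_upwards [hO.mem_nhds hz₀] with z hz using h1 z hz)
  by_contra hcon
  push Not at hcon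
  have h2 : ∀ z ∈ O, τ.val ((e i₀).symm (f i₀ z)) = 0 := by
    intro z hz
    by_contra hne
    obtain ⟨i, hi, hi2⟩ := hcon z (hOD hz) hne
    exact hP z hz i (Finset.mem_univ _) hi hi2
  obtain ⟨z₀, hz₀⟩ := hOn
  have hb := h.br i₀ z₀ (hOD hz₀)
  obtain ⟨-, -, -, -, -, hmap⟩ := exists_linv hb.an
    (bij_of_det (br_det hb hm (hV _ (h.sub (hOD hz₀)))))
  have h3 : ∀ᶠ y in 𝓝 (f i₀ z₀), τ.coeff (e i₀) y = 0 := by
    rw [← hmap, eventually_map]
    filter_upwards [hO.mem_nhds hz₀, br_nhds hb] with z hz hbz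
    have hat : At (e i₀) ((e i₀).symm (f i₀ z)) := At.of_target hbz.mem hbz.tgt
    by_contra hne
    refine (val_ne_iff τ hat).2 ?_ (h2 z hz)
    rw [(e i₀).right_inv hbz.tgt]
    exact hne
  obtain ⟨e', x', hx', hne⟩ := hτ
  have hat : At (e i₀) ((e i₀).symm (f i₀ z₀)) := At.of_target hb.mem hb.tgt
  refine hne (Vale.Agent.P284.H812.ident τ hat ?_ hx')
  rw [(e i₀).right_inv hb.tgt]
  exact h3

omit [T2Space Z] in
/-- value and derivative of the trace at a point where all other branches meet a double zero -/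
theorem Brs.tr_jet (h : Brs m N V B G d β₀ s e f) {β : Cm n} (hβ : β ∈ ball β₀ s) (i₀ : Fin d)
    (σ : PSec n k Z) (hσ : ∀ i, i ≠ i₀ → V2 σ ((e i).symm (f i β))) {c : Chart n Z}
    (hc : At c ((e i₀).symm (f i₀ β))) :
    trv G σ β = pb σ c (fun z => (e i₀).symm (f i₀ z)) β ∧
      HasFDerivAt (trv G σ) (fderiv ℂ (pb σ c (fun z => (e i₀).symm (f i₀ z))) β) β := by
  classical
  set q : Fin d → Cm n → Z := fun i z => (e i).symm (f i z) with hq
  have hhol : ∀ i, ContMDiffAt 𝓘(ℂ, Cm n) 𝓘(ℂ, Cm n) ω (q i) β := fun i => br_hol (h.br i β hβ)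
  have hat : ∀ i, At (chartAt (Cm n) (q i β) : Chart n Z) (q i β) := fun i =>
    ⟨chart_mem_atlas _ _, mem_chart_source _ _⟩
  set ch : Fin d → Chart n Z := fun i => if i = i₀ then c else chartAt (Cm n) (q i β) with hch
  have hchat : ∀ i, At (ch i) (q i β) := by
    intro i
    by_cases hi : i = i₀
    · subst hi; simp only [hch, if_pos]; exact hc
    · simp only [hch, if_neg hi]; exact hat i
  have hch0 : ch i₀ = c := by simp [hch]
  have h1 : trv G σ =ᶠ[𝓝 β] fun z => ∑ i, pb σ (ch i) (q i) z := by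
    have h2 : ∀ᶠ z in 𝓝 β, ∀ i, fval σ z (q i) = pb σ (ch i) (q i) z :=
      eventually_all.2 fun i => fval_ev σ (hhol i) (hchat i)
    filter_upwards [h2, isOpen_ball.mem_nhds hβ] with z hz hzb
    rw [h.trv_eq hzb σ]
    exact Finset.sum_congr rfl fun i _ => hz i
  have h3 : ∀ i, HasFDerivAt (pb σ (ch i) (q i))
      (if i = i₀ then fderiv ℂ (pb σ c (q i₀)) β else 0) β := by
    intro i
    by_cases hi : i = i₀
    · subst hi
      rw [if_pos rfl, hch0]
      exact (pb_an σ (hhol i) hc).differentiableAt.hasFDerivAt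
    · rw [if_neg hi]
      exact (pb_V2 (hhol i) (hchat i) (hσ i hi)).2
  have h4 : ∀ i, i ≠ i₀ → pb σ (ch i) (q i) β = 0 := fun i hi =>
    (pb_V2 (hhol i) (hchat i) (hσ i hi)).1
  constructor
  · rw [h1.self_of_nhds]
    change ∑ i, pb σ (ch i) (q i) β = _
    rw [Finset.sum_eq_single i₀ (fun i _ hi => h4 i hi)
      (fun h => absurd (Finset.mem_univ _) h), hch0]
  · have h5 := HasFDerivAt.fun_sum (u := Finset.univ) fun i _ => h3 i
    rw [Finset.sum_ite_eq' Finset.univ i₀, if_pos (Finset.mem_univ _)] at h5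
    exact h5.congr_of_eventuallyEq h1

end fam

/-- derivative of a quotient -/
lemma hasFDerivAt_quot {E : Type*} [NormedAddCommGroup E] [NormedSpace ℂ E] {u v : E → ℂ}
    {u' v' : E →L[ℂ] ℂ} {x : E} (hu : HasFDerivAt u u' x) (hv : HasFDerivAt v v' x)
    (h0 : v x ≠ 0) : HasFDerivAt (fun z => u z / v z)
      ((v x)⁻¹ • u' - (u x * ((v x) ^ 2)⁻¹) • v') x := by
  have h1 : HasFDerivAt (fun z => (v z)⁻¹) (-((v x) ^ 2)⁻¹ • v') x :=
    (hasDerivAt_inv h0).comp_hasFDerivAt x hv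
  have h2 := hu.mul h1
  have h3 : (fun z => u z / v z) = u * fun z => (v z)⁻¹ := by
    funext z; simp [div_eq_mul_inv]
  rw [h3]
  refine h2.congr_fderiv ?_
  ext y
  simp
  ring

theorem m7Stmt : M7Stmt := by
  intro R m hR hm Z _ _ _ _ _ _ w hw hpos H _ _ _ N hN hI H' _ _ _ V B hB hVd hV G hfam d hd β₀
    hβ₀ hcard hd1
  classical
  obtain ⟨s, e, f, h⟩ := exists_brs hfam hB hd hβ₀ hcard
  obtain ⟨M, τ, hM, hτ, -, hbd, hjet⟩ := jetZ R m hR hm Z hw hpos H hN hI
  set i₀ : Fin d := ⟨0, hd1⟩ with hi₀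
  obtain ⟨β, hβ, hτβ, hne⟩ := h.exists_beta hm hV τ hτ i₀
  set q : Cm R → Z := fun z => (e i₀).symm (f i₀ z) with hq
  set S : Finset Z := (Finset.univ.filter fun i : Fin d => i ≠ i₀).image
    fun i => (e i).symm (f i β) with hSdef
  have hS : q β ∉ S := by
    intro hmem
    obtain ⟨i, hi, hi2⟩ := Finset.mem_image.1 hmem
    exact hne i (Finset.mem_filter.1 hi).2 hi2
  obtain ⟨b, hb, s0, s', hJ⟩ := hjet (q β) S hS hτβ
  obtain ⟨hj, hV2⟩ := hJ b
  have hC0 := hbd b s0 b (by omega)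
  have hCs := fun i => hbd b (s' i) b (by omega)
  set σ : Fin (R + 1) → PSec R (M * b + b) Z :=
    Fin.cons ((τ.pow b).mul s0) (fun i => (τ.pow b).mul (s' i)) with hσ
  have hσ0 : σ 0 = (τ.pow b).mul s0 := rfl
  have hσs : ∀ a : Fin R, σ a.succ = (τ.pow b).mul (s' a) := fun a => by
    rw [hσ, Fin.cons_succ]
  have h2b : 2 * b - b = b := by omega
  have hC : ∀ i, ∃ C : ℝ, 0 ≤ C ∧ ∀ e x, At e x → (‖(σ i).coeff e (e x)‖ ^ 2) ^ m ≤
      C * N e (e x) ^ (M * b + b) * (N e (e x) * Real.exp (-(m : ℝ) * w e (e x))) ^ b := by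
    intro i
    rw [h2b] at hC0 hCs
    refine Fin.cases ?_ (fun i => ?_) i
    · rw [hσ0]; exact hC0
    · rw [hσs]; exact hCs i
  choose C hC1 hC2 using hC
  have hV2σ : ∀ (a : Fin (R + 1)) (i : Fin d), i ≠ i₀ → V2 (σ a) ((e i).symm (f i β)) := by
    intro a i hi
    have hy : (e i).symm (f i β) ∈ S :=
      Finset.mem_image.2 ⟨i, Finset.mem_filter.2 ⟨Finset.mem_univ _, hi⟩, rfl⟩
    refine Fin.cases ?_ (fun a => ?_) a
    · rw [hσ0]; exact (hV2 _ hy).1
    · rw [hσs]; exact (hV2 _ hy).2 a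
  set c : Chart R Z := chartAt (Cm R) (q β) with hc
  have hcat : At c (q β) := ⟨chart_mem_atlas _ _, mem_chart_source _ _⟩
  have hqh : ContMDiffAt 𝓘(ℂ, Cm R) 𝓘(ℂ, Cm R) ω q β := br_hol (h.br i₀ β hβ)
  have hdet : (fderiv ℂ (fun z => c (q z)) β).det ≠ 0 :=
    br_chart_det (h.br i₀ β hβ) hm (hV _ (h.sub hβ)) hcat
  have hT := fun a => h.tr_jet hβ i₀ (σ a) (hV2σ a) hcat
  have hs0 : (σ 0).coeff c (c (q β)) ≠ 0 := hj.1
  have hne0 : pb (σ 0) c q β ≠ 0 := mul_ne_zero hs0 (pow_ne_zero _ hdet)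
  have htr0 : trv G (σ 0) β ≠ 0 := by
    rw [(hT 0).1]; exact hne0
  refine ⟨M * b + b, b, σ, ∑ i, C i, β, by omega, hb, h.sub hβ, fun i e x hx => ?_, htr0, ?_⟩
  · refine (hC2 i e x hx).trans ?_
    have hNn := hmet_nonneg hN hx
    have hCi : C i ≤ ∑ i, C i := Finset.single_le_sum (fun j _ => hC1 j) (Finset.mem_univ i)
    gcongr
  · have hr := ratio_analyticAt (s0 := (τ.pow b).mul s0) (s := fun i => (τ.pow b).mul (s' i))
      hcat hj.1
    set L : Cm R →L[ℂ] (Fin R → ℂ) :=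
      fderiv ℂ (Vale.Agent.P272.KOD.ratio ((τ.pow b).mul s0) (fun i => (τ.pow b).mul (s' i)) c) (c (q β)) with hL
    set D := fderiv ℂ (fun z => c (q z)) β with hD
    have hca := analyticAt_chart_map hqh hcat
    have key : ∀ a : Fin R, fderiv ℂ (fun z => trv G (σ a.succ) z / trv G (σ 0) z) β =
        (ContinuousLinearMap.proj a : (Fin R → ℂ) →L[ℂ] ℂ).comp (L.comp D) := by
      intro a
      have k1 := hasFDerivAt_quot (hT a.succ).2 (hT 0).2 htr0
      have k2 := hasFDerivAt_quot (pb_an (σ a.succ) hqh hcat).differentiableAt.hasFDerivAt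
        (pb_an (σ 0) hqh hcat).differentiableAt.hasFDerivAt hne0
      rw [k1.fderiv, (hT a.succ).1, (hT 0).1]
      have k3 : (fun z => pb (σ a.succ) c q z / pb (σ 0) c q z) =ᶠ[𝓝 β]
          fun z => Vale.Agent.P272.KOD.ratio ((τ.pow b).mul s0) (fun i => (τ.pow b).mul (s' i)) c (c (q z)) a := by
        have k4 : ∀ᶠ z in 𝓝 β, (fderiv ℂ (fun z => c (q z)) z).det ≠ 0 :=
          (analyticAt_det hca).continuousAt.eventually_ne hdet
        filter_upwards [k4] with z hz
        rw [hσ0, hσs]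
        unfold pb Vale.Agent.P272.KOD.ratio
        rw [mul_div_mul_right _ _ (pow_ne_zero _ hz)]
      have k5 : HasFDerivAt (fun z => Vale.Agent.P272.KOD.ratio ((τ.pow b).mul s0) (fun i => (τ.pow b).mul (s' i)) c
          (c (q z))) (L.comp D) β :=
        HasFDerivAt.comp β (g := Vale.Agent.P272.KOD.ratio ((τ.pow b).mul s0) (fun i => (τ.pow b).mul (s' i)) c)
          hr.differentiableAt.hasFDerivAt hca.differentiableAt.hasFDerivAt
      have k6 := (ContinuousLinearMap.proj (R := ℂ) (φ := fun _ : Fin R => ℂ) a).hasFDerivAt.comp β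
        k5
      exact k2.unique (k6.congr_of_eventuallyEq k3)
    have hsurj : Function.Surjective (L.comp D) := by
      obtain ⟨L', hL'⟩ := exists_equiv (L := L) hj.2
      have h1 : Function.Surjective L := by
        rw [← hL']; exact L'.surjective
      exact h1.comp (bij_of_det hdet).2
    rw [Fintype.linearIndependent_iff]
    intro g hg a
    obtain ⟨v, hv⟩ := hsurj (Pi.single a 1)
    have h2 := congrArg (fun T : Cm R →L[ℂ] ℂ => T v) hg
    have h3 : ∀ i, (ContinuousLinearMap.proj (R := ℂ) (φ := fun _ : Fin R => ℂ) i).comp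
        (L.comp D) v = if i = a then 1 else 0 := by
      intro i
      change (L.comp D) v i = _
      rw [hv, Pi.single_apply]
    simp only [key] at h2
    simp only [_root_.sum_apply, _root_.smul_apply, _root_.zero_apply, smul_eq_mul, h3] at h2
    simpa using h2

end Vale.Agent.P284.H625.M7
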