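import Vale.Agent.P284.H837.BrS
import Vale.Agent.P284.H812.KO1

/-!
# P284 (helper625), T1' (M7), part 1: generic points, pull-backs of sections by branches
-/

open scoped Manifold ContDiff Topology ComplexOrder
open Filter Set Metric

noncomputable section

namespace Vale.Agent.P284.H625.M7

open Vale.Agent.P272.K Vale.Agent.P272.KOD Vale.Agent.P284.H812 Vale.Agent.P284.H451
  Vale.Agent.P284.H573 Vale.Agent.P284.H837

section gen

/-- a nonempty open set on which finitely many open conditions, each dense, hold -/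
lemma exists_generic {ι E : Type*} [TopologicalSpace E] (S : Finset ι) (P : ι → E → Prop)
    {D : Set E} (hD : IsOpen D) (hne : D.Nonempty)
    (h : ∀ i ∈ S, ∀ O ⊆ D, IsOpen O → O.Nonempty → ∃ z ∈ O, ∀ᶠ z' in 𝓝 z, P i z') :
    ∃ O ⊆ D, IsOpen O ∧ O.Nonempty ∧ ∀ z ∈ O, ∀ i ∈ S, P i z := by
  classical
  induction S using Finset.induction_on with
  | empty => exact ⟨D, subset_rfl, hD, hne, by simp⟩
  | insert i S hi ih =>
    obtain ⟨O, hOD, hO, hOn, hP⟩ := ih fun j hj => h j (Finset.mem_insert_of_mem hj)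
    obtain ⟨z, hz, hz2⟩ := h i (Finset.mem_insert_self _ _) O hOD hO hOn
    refine ⟨O ∩ interior {z' | P i z'}, inter_subset_left.trans hOD, hO.inter isOpen_interior,
      ⟨z, hz, mem_interior_iff_mem_nhds.2 hz2⟩, fun z' hz' j hj => ?_⟩
    rcases Finset.mem_insert.1 hj with rfl | hj
    · exact interior_subset hz'.2
    · exact hP z' hz'.1 j hj

end gen

section br
variable {n m k : ℕ} {Z : Type} [TopologicalSpace Z] [ChartedSpace (Cm n) Z]
  {H' : Type*} [NormedAddCommGroup H'] {N : Chart n Z → Cm n → ℝ}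
  {V : Cm n → H'} {ζ : Cm n} {e : Chart n Z} {f : Cm n → Cm n}

lemma br_nhds (h : IsBranch m N V ζ e f) : ∀ᶠ z in 𝓝 ζ, IsBranch m N V z e f := by
  filter_upwards [h.an.eventually_analyticAt,
    h.an.continuousAt.eventually_mem (e.open_target.mem_nhds h.tgt), h.eq.eventually_nhds]
    with z a1 a2 a3
  exact ⟨h.mem, a2, a1, a3⟩

lemma br_hol [IsManifold 𝓘(ℂ, Cm n) ω Z] (h : IsBranch m N V ζ e f) :
    ContMDiffAt 𝓘(ℂ, Cm n) 𝓘(ℂ, Cm n) ω (fun z => e.symm (f z)) ζ :=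
  (chart_symm_contMDiffAt (n := n) (X := Z) h.mem h.tgt).comp ζ h.an.contDiffAt.contMDiffAt

lemma br_det (h : IsBranch m N V ζ e f) (hm : 1 ≤ m) (hV : V ζ ≠ 0) :
    (fderiv ℂ f ζ).det ≠ 0 := by
  intro h0
  have h1 := h.eq.self_of_nhds
  rw [h0, norm_zero, zero_pow two_ne_zero, zero_pow (by omega), mul_zero] at h1
  exact hV (norm_eq_zero.1 (pow_eq_zero_iff two_ne_zero |>.1 h1.symm))

lemma bij_of_det {A : Cm n →L[ℂ] Cm n} (h : A.det ≠ 0) : Function.Bijective A := by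
  have h1 := (ContinuousLinearMap.toContinuousLinearEquivOfDetNeZero A h).bijective
  exact h1

lemma det_comp (A B : Cm n →L[ℂ] Cm n) : (A.comp B).det = A.det * B.det :=
  LinearMap.det_comp _ _

/-- the derivative of a branch in a chart is invertible -/
lemma br_chart_det [IsManifold 𝓘(ℂ, Cm n) ω Z] (h : IsBranch m N V ζ e f) (hm : 1 ≤ m)
    (hV : V ζ ≠ 0) {c : Chart n Z} (hc : At c (e.symm (f ζ))) :
    (fderiv ℂ (fun z => c (e.symm (f z))) ζ).det ≠ 0 := by
  have h1 := brT_det h.an (At.of_target h.mem h.tgt) h.tgt hc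
  have h2 : (fderiv ℂ (fun z => c (e.symm (f z))) ζ) = fderiv ℂ (brT e c f) ζ := rfl
  rw [h2, h1]
  exact mul_ne_zero (jacM_det_ne_zero (At.of_target h.mem h.tgt) hc) (br_det h hm hV)

end br

section pb
variable {n k : ℕ} {Z : Type} [TopologicalSpace Z] [ChartedSpace (Cm n) Z]

/-- the coefficient of the pull-back of `σ` by `q`, computed in the chart `c` -/
def pb (σ : PSec n k Z) (c : Chart n Z) (q : Cm n → Z) (z : Cm n) : ℂ :=
  σ.coeff c (c (q z)) * (fderiv ℂ (fun z' => c (q z')) z).det ^ k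

variable [IsManifold 𝓘(ℂ, Cm n) ω Z]

/-- the value of the pull-back in any chart -/
lemma fval_eq (σ : PSec n k Z) {q : Cm n → Z} {z : Cm n}
    (hq : ContMDiffAt 𝓘(ℂ, Cm n) 𝓘(ℂ, Cm n) ω q z) {c : Chart n Z} (hc : At c (q z)) :
    fval σ z q = pb σ c q z := by
  have hc' : At (chartAt (Cm n) (q z) : Chart n Z) (q z) :=
    ⟨chart_mem_atlas _ _, mem_chart_source _ _⟩
  unfold fval pb
  set c' : Chart n Z := chartAt (Cm n) (q z) with hcdef
  have h1 := σ.change c' c (q z) hc' hc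
  have h2 : ∀ᶠ z' in 𝓝 z, q z' ∈ c'.source :=
    hq.continuousAt.eventually_mem (c'.open_source.mem_nhds hc'.2)
  have h3 : (fun z' => c (q z')) =ᶠ[𝓝 z] fun z' => c (c'.symm (c' (q z'))) := by
    filter_upwards [h2] with z' hz'
    rw [c'.left_inv hz']
  have h4 : fderiv ℂ (fun z' => c (q z')) z =
      (fderiv ℂ (fun y => c (c'.symm y)) (c' (q z))).comp (fderiv ℂ (fun z' => c' (q z')) z) := by
    rw [h3.fderiv_eq]
    exact fderiv_comp (𝕜 := ℂ) z (g := fun y => c (c'.symm y))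
      (transition_differentiableAt hc' hc)
      (analyticAt_chart_map hq hc').differentiableAt
  rw [h4, det_comp, det_transition hc' hc, h1, mul_pow]
  ring

lemma fval_ev (σ : PSec n k Z) {q : Cm n → Z} {z : Cm n}
    (hq : ContMDiffAt 𝓘(ℂ, Cm n) 𝓘(ℂ, Cm n) ω q z) {c : Chart n Z} (hc : At c (q z)) :
    ∀ᶠ z' in 𝓝 z, fval σ z' q = pb σ c q z' := by
  filter_upwards [contMDiffAt_ev hq,
    hq.continuousAt.eventually_mem (c.open_source.mem_nhds hc.2)] with z' a1 a2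
  exact fval_eq σ a1 ⟨hc.1, a2⟩

lemma pb_an (σ : PSec n k Z) {q : Cm n → Z} {z : Cm n}
    (hq : ContMDiffAt 𝓘(ℂ, Cm n) 𝓘(ℂ, Cm n) ω q z) {c : Chart n Z} (hc : At c (q z)) :
    AnalyticAt ℂ (pb σ c q) z := by
  have h1 := analyticAt_chart_map hq hc
  have h2 : AnalyticAt ℂ (fun z' => σ.coeff c (c (q z'))) z :=
    AnalyticAt.fun_comp (g := σ.coeff c) (σ.holo c _ hc) h1
  exact h2.mul ((analyticAt_det h1).pow k)

lemma pb_V2 {σ : PSec n k Z} {q : Cm n → Z} {z : Cm n}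
    (hq : ContMDiffAt 𝓘(ℂ, Cm n) 𝓘(ℂ, Cm n) ω q z) {c : Chart n Z} (hc : At c (q z))
    (h : V2 σ (q z)) : pb σ c q z = 0 ∧ HasFDerivAt (pb σ c q) (0 : Cm n →L[ℂ] ℂ) z := by
  obtain ⟨h1, h2⟩ := h c hc
  have h3 := analyticAt_chart_map hq hc
  refine ⟨by rw [pb, h1, zero_mul], ?_⟩
  have h4 : HasFDerivAt (σ.coeff c) (0 : Cm n →L[ℂ] ℂ) (c (q z)) := by
    rw [← h2]; exact (σ.holo c _ hc).differentiableAt.hasFDerivAt
  have h5 : HasFDerivAt (fun z' => σ.coeff c (c (q z'))) (0 : Cm n →L[ℂ] ℂ) z := by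
    have := HasFDerivAt.comp z (g := σ.coeff c) h4 h3.differentiableAt.hasFDerivAt
    refine this.congr_fderiv ?_
    ext y; rfl
  have h6 := h5.mul ((analyticAt_det h3).pow k).differentiableAt.hasFDerivAt
  refine h6.congr_fderiv ?_
  rw [h1]
  ext y
  simp

end pb

end Vale.Agent.P284.H625.M7
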